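import Mathlib
import Vale.Agent.Lib.Helper2.P047.Defs
import Vale.Agent.Lib.Helper2.P047.Compose
import Vale.Agent.Lib.Helper2.P047.MajGlue
import Vale.Agent.Lib.Helper2.P047.MajDef
import Vale.Agent.Lib.Helper2.P047.MajBound
import Vale.Agent.Lib.Helper2.P047.Fano

namespace Vale.Agent.Results.P047.EvenDegreeBeatsMajority

open Vale.Agent.Lib.Helper2.P047

/-- For every even `d ≥ 4` some Boolean function of degree at most `d` has level-one sum
`B_d + binom(d-3, d/2-2) / 2^(d-2)`, strictly above the majority value `B_d`. -/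
theorem result :
    ∀ d : ℕ, Even d → 4 ≤ d →
      ∃ (n : ℕ) (f : (Fin n → ℤˣ) → ℤˣ),
        degree f ≤ d ∧
        levelOne f = majBound d + ((d - 3).choose (d / 2 - 2) : ℝ) / 2 ^ (d - 2) ∧
        majBound d < levelOne f := by
  intro d hd h4
  obtain ⟨j, hj⟩ := hd
  obtain ⟨k, rfl⟩ : ∃ k, d = 2 * k + 4 := ⟨j - 2, by omega⟩
  have hm : Odd (2 * k + 1) := ⟨k, rfl⟩
  have e1 : 2 * k + 4 - 3 = 2 * k + 1 := by omega
  have e2 : (2 * k + 4) / 2 - 2 = k := by omega
  have e3 : 2 * k + 4 - 2 = (2 * k + 1) + 1 := by omega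
  have e4 : 2 * k + 4 = (2 * k + 1) + 3 := by omega
  have hval : levelOne (glueMaj (κ := Fin (2 * k + 1)) fano)
      = majBound (2 * k + 4) + ((2 * k + 1).choose k : ℝ) / 2 ^ ((2 * k + 1) + 1) := by
    rw [levelOne_glueMaj_eq (2 * k + 1) hm fano, levelOne_fano, card_slab k, ← e4]
    congr 1
    push_cast
    rw [pow_succ]
    have h2 : (2 : ℝ) ^ (2 * k + 1) ≠ 0 := by positivity
    field_simp
    ring
  refine ⟨7 + (2 * k + 1), reindex finSumFinEquiv (glueMaj (κ := Fin (2 * k + 1)) fano), ?_, ?_, ?_⟩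
  · calc degree (reindex finSumFinEquiv (glueMaj (κ := Fin (2 * k + 1)) fano))
        ≤ degree (glueMaj (κ := Fin (2 * k + 1)) fano) := degree_reindex_le _ _
      _ ≤ 4 + Fintype.card (Fin (2 * k + 1)) - 1 :=
          degree_glueMaj_le fano (by simpa using hm) 4 degree_fano_le (by norm_num)
      _ = 2 * k + 4 := by
          rw [Fintype.card_fin]
          omega
  · rw [levelOne_reindex, hval, e1, e2, e3]
  · rw [levelOne_reindex, e4]
    exact majBound_lt_levelOne_glueMaj (2 * k + 1) hm fano (by rw [levelOne_fano]; norm_num)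

end Vale.Agent.Results.P047.EvenDegreeBeatsMajority
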