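import Mathlib
import Vale.Agent.Lib.Helper2.P047.Defs
import Vale.Agent.Lib.Helper2.P047.Linear

namespace Vale.Agent.Results.P047.LinearBoundImproved

open Vale.Agent.Lib.Helper2.P047

/-- For every `d ≥ 2`, every Boolean function of degree at most `d` has level-one sum at most
`(29/30) d`; that is, `M(d) ≤ (29/30) d`. -/
theorem result :
    ∀ d : ℕ, 2 ≤ d → ∀ (n : ℕ) (f : (Fin n → ℤˣ) → ℤˣ),
      degree f ≤ d → levelOne f ≤ 29 / 30 * (d : ℝ) := by
  intro d hd n f hf
  have hd' : (2 : ℝ) ≤ d := by exact_mod_cast hd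
  by_cases h2 : 2 ≤ degree f
  · have h1 := levelOne_le_linear f h2
    have h3 : (degree f : ℝ) ≤ d := by exact_mod_cast hf
    linarith
  · have h1 := levelOne_le_odd f 0 (by omega)
    norm_num at h1
    linarith

end Vale.Agent.Results.P047.LinearBoundImproved
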