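import Mathlib
import Vale.Agent.Lib.Helper2.P047.Defs

/-!
# P047: level-one sums, subcube partitions and unambiguous DNFs

Let `f` be a Boolean function on `{-1,1}^n` and let `C_j = {x | x i = a_j i for all i ∈ S_j}`
be subcubes.

(1) If the `C_j` partition the cube and `f` is constant on each of them, then the level-one sum
of `f` is at most the square root of the average codimension `∑ j, |S_j| / 2 ^ |S_j|` of the
partition, hence at most `√d` if every subcube has codimension at most `d`.  The leaves of a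
decision tree form such a partition, and the average codimension is then the average number of
queries, so this contains the decision-tree bound of O'Donnell and Servedio; here no tree
structure is assumed.

(2) If the `C_j` are pairwise disjoint, have codimension at most `d`, and their union is one of
the two level sets of `f` (an unambiguous DNF of width `d`), then the level-one sum of `f` is at
most `2 √d`.

Proof of (1).  Write `L x = ∑ i, x i`, and for a subcube `C` with fixed set `S` and fixed values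
`a` let `s = ∑ i ∈ S, a i`.  The mean of `L` over `C` is `s` and the mean of `L ^ 2` over `C` is
`s ^ 2 + n - |S|`.  Since the subcubes partition the cube, the mean of `L ^ 2` over the whole
cube, which is `n`, is the weighted mean of the numbers `s_j ^ 2 + n - |S_j|`, so the weighted
mean of `s_j ^ 2` equals the weighted mean of `|S_j|`.  The level-one sum is the mean of `f L`,
that is the weighted mean of `± s_j`, and the Cauchy-Schwarz inequality finishes the proof.

Proof of (2).  Say the level set is `{f = b}`, and let `P_j`, `M_j` be the numbers of fixed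
coordinates of `C_j` equal to `b`, respectively to `-b`.  The level-one sum is twice the sum of
the numbers `P_j - M_j` divided by `2 ^ |S_j|`.  Under the product measure in which every coordinate has
mean `b δ`, `δ = 1 / √d`, the measure of the subcube `C_j` is the product of `2 ^ (-|S_j|)`,
of the `P_j`-th power of `1 + δ` and of the `M_j`-th power of `1 - δ`,
and these measures add up to at most one because the subcubes are disjoint.  Finally
the number `P - M` is at most `√d` times that product of powers whenever `P + M ≤ d`, by Bernoulli's inequality and a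
second-order binomial bound.
-/

namespace Vale.Agent.Results.P047.SubcubePartitions

open Vale.Agent.Lib.Helper2.P047 Finset

variable {n : ℕ}

/-- The coordinate `x i` of a point of the cube, as a real number (`1` or `-1`). -/
noncomputable def sg (x : Fin n → ℤˣ) (i : Fin n) : ℝ := ((x i : ℤ) : ℝ)

theorem sg_mul_self (x : Fin n → ℤˣ) (i : Fin n) : sg x i * sg x i = 1 := by
  unfold sg
  rcases Int.units_eq_one_or (x i) with h | h <;> simp [h]

/-- Indicator of the subcube of all `x` with `x i = a i` for every `i ∈ S`. -/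
noncomputable def ind (S : Finset (Fin n)) (a x : Fin n → ℤˣ) : ℝ :=
  if ∀ i ∈ S, x i = a i then 1 else 0

/-- The mean of the coordinate `i` over the subcube: `a i` if `i ∈ S`, and `0` otherwise. -/
noncomputable def u (S : Finset (Fin n)) (a : Fin n → ℤˣ) (i : Fin n) : ℝ :=
  if i ∈ S then sg a i else 0

/-- Flipping the coordinate `i`. -/
def flip (i : Fin n) : (Fin n → ℤˣ) ≃ (Fin n → ℤˣ) :=
  Function.Involutive.toPerm (fun x => Function.update x i (-x i)) (by
    intro x
    funext k
    by_cases hk : k = i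
    · subst hk
      simp
    · simp [Function.update_of_ne hk])

theorem flip_self (i : Fin n) (x : Fin n → ℤˣ) : flip i x i = -x i := by
  show Function.update x i (-x i) i = -x i
  simp

theorem flip_ne (i k : Fin n) (x : Fin n → ℤˣ) (h : k ≠ i) : flip i x k = x k := by
  show Function.update x i (-x i) k = x k
  exact Function.update_of_ne h _ _

theorem sg_flip_self (i : Fin n) (x : Fin n → ℤˣ) : sg (flip i x) i = -sg x i := by
  unfold sg
  rw [flip_self]
  simp

theorem sg_flip_ne (i k : Fin n) (x : Fin n → ℤˣ) (h : k ≠ i) : sg (flip i x) k = sg x k := by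
  unfold sg
  rw [flip_ne i k x h]

theorem ind_flip (S : Finset (Fin n)) (a x : Fin n → ℤˣ) (i : Fin n) (hi : i ∉ S) :
    ind S a (flip i x) = ind S a x := by
  unfold ind
  have : (∀ k ∈ S, flip i x k = a k) ↔ (∀ k ∈ S, x k = a k) := by
    constructor
    · intro h k hk
      have hne : k ≠ i := fun e => hi (e ▸ hk)
      rw [← flip_ne i k x hne]
      exact h k hk
    · intro h k hk
      have hne : k ≠ i := fun e => hi (e ▸ hk)
      rw [flip_ne i k x hne]
      exact h k hk
  simp only [this]

/-- A sum over the cube that changes sign under a coordinate flip vanishes. -/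
theorem sum_eq_zero_of_flip (i : Fin n) (F : (Fin n → ℤˣ) → ℝ)
    (h : ∀ x, F (flip i x) = -F x) : ∑ x, F x = 0 := by
  have h1 := Equiv.sum_comp (flip i) F
  have h2 : ∑ x, F (flip i x) = -∑ x, F x := by
    rw [← Finset.sum_neg_distrib]
    exact Finset.sum_congr rfl fun x _ => h x
  linarith

/-- The first moment of a coordinate over a subcube. -/
theorem sum_ind_sg (S : Finset (Fin n)) (a : Fin n → ℤˣ) (i : Fin n) :
    ∑ x, ind S a x * sg x i = u S a i * ∑ x, ind S a x := by
  unfold u
  by_cases hi : i ∈ S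
  · rw [if_pos hi, Finset.mul_sum]
    refine Finset.sum_congr rfl fun x _ => ?_
    unfold ind
    by_cases hx : ∀ k ∈ S, x k = a k
    · rw [if_pos hx]
      unfold sg
      rw [hx i hi]
      ring
    · rw [if_neg hx]
      ring
  · rw [if_neg hi, zero_mul]
    refine sum_eq_zero_of_flip i _ fun x => ?_
    rw [ind_flip S a x i hi, sg_flip_self]
    ring

/-- The mixed second moments of the coordinates over a subcube. -/
theorem sum_ind_sg_sg (S : Finset (Fin n)) (a : Fin n → ℤˣ) (i k : Fin n) :
    ∑ x, ind S a x * (sg x i * sg x k) =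
      (u S a i * u S a k + if i = k then 1 - u S a i ^ 2 else 0) * ∑ x, ind S a x := by
  by_cases hik : i = k
  · subst hik
    rw [if_pos rfl]
    have : ∀ x, ind S a x * (sg x i * sg x i) = ind S a x := by
      intro x
      rw [sg_mul_self, mul_one]
    simp only [this]
    ring
  · rw [if_neg hik, add_zero]
    by_cases hi : i ∈ S
    · by_cases hk : k ∈ S
      · unfold u
        rw [if_pos hi, if_pos hk, Finset.mul_sum]
        refine Finset.sum_congr rfl fun x _ => ?_
        unfold ind
        by_cases hx : ∀ j ∈ S, x j = a j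
        · rw [if_pos hx]
          unfold sg
          rw [hx i hi, hx k hk]
          ring
        · rw [if_neg hx]
          ring
      · have hu : u S a k = 0 := by
          unfold u
          rw [if_neg hk]
        rw [hu, mul_zero, zero_mul]
        refine sum_eq_zero_of_flip k _ fun x => ?_
        rw [ind_flip S a x k hk, sg_flip_self, sg_flip_ne k i x hik]
        ring
    · have hu : u S a i = 0 := by
        unfold u
        rw [if_neg hi]
      rw [hu, zero_mul, zero_mul]
      refine sum_eq_zero_of_flip i _ fun x => ?_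
      rw [ind_flip S a x i hi, sg_flip_self, sg_flip_ne i k x (Ne.symm hik)]
      ring

/-- The sum of the squares of the means `u`: the codimension. -/
theorem sum_u_sq (S : Finset (Fin n)) (a : Fin n → ℤˣ) :
    ∑ i, u S a i ^ 2 = (S.card : ℝ) := by
  have h : ∀ i, u S a i ^ 2 = if i ∈ S then (1 : ℝ) else 0 := by
    intro i
    unfold u
    by_cases hi : i ∈ S
    · rw [if_pos hi, if_pos hi, sq, sg_mul_self]
    · rw [if_neg hi, if_neg hi]
      ring
  simp only [h]
  rw [Finset.sum_ite_mem, Finset.univ_inter]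
  simp

/-- The first moment of `L x = ∑ i, x i` over a subcube. -/
theorem sum_ind_L (S : Finset (Fin n)) (a : Fin n → ℤˣ) :
    ∑ x, ind S a x * ∑ i, sg x i = (∑ i, u S a i) * ∑ x, ind S a x := by
  calc ∑ x, ind S a x * ∑ i, sg x i = ∑ x, ∑ i, ind S a x * sg x i := by
        refine Finset.sum_congr rfl fun x _ => ?_
        rw [Finset.mul_sum]
    _ = ∑ i, ∑ x, ind S a x * sg x i := Finset.sum_comm
    _ = ∑ i, u S a i * ∑ x, ind S a x := Finset.sum_congr rfl fun i _ => sum_ind_sg S a i
    _ = (∑ i, u S a i) * ∑ x, ind S a x := by rw [Finset.sum_mul]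

/-- The second moment of `L x = ∑ i, x i` over a subcube. -/
theorem sum_ind_L_sq (S : Finset (Fin n)) (a : Fin n → ℤˣ) :
    ∑ x, ind S a x * (∑ i, sg x i) ^ 2 =
      ((∑ i, u S a i) ^ 2 + ((n : ℝ) - S.card)) * ∑ x, ind S a x := by
  have h1 : ∀ x : Fin n → ℤˣ, ind S a x * (∑ i, sg x i) ^ 2 =
      ∑ i, ∑ k, ind S a x * (sg x i * sg x k) := by
    intro x
    rw [sq, Finset.sum_mul_sum, Finset.mul_sum]
    refine Finset.sum_congr rfl fun i _ => ?_
    rw [Finset.mul_sum]
  simp only [h1]
  rw [Finset.sum_comm]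
  have h2 : ∀ i : Fin n, ∑ x : Fin n → ℤˣ, ∑ k, ind S a x * (sg x i * sg x k) =
      ∑ k, (u S a i * u S a k + if i = k then 1 - u S a i ^ 2 else 0) * ∑ x, ind S a x := by
    intro i
    rw [Finset.sum_comm]
    exact Finset.sum_congr rfl fun k _ => sum_ind_sg_sg S a i k
  simp only [h2]
  simp only [← Finset.sum_mul]
  congr 1
  simp only [Finset.sum_add_distrib, Finset.sum_ite_eq, Finset.mem_univ, if_true]
  rw [Finset.sum_sub_distrib, sum_u_sq]
  simp only [Finset.sum_const, Finset.card_univ, Fintype.card_fin, nsmul_eq_mul, mul_one]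
  rw [sq, Finset.sum_mul_sum]

/-- The number of points of a subcube. -/
theorem sum_ind (S : Finset (Fin n)) (a : Fin n → ℤˣ) :
    (∑ x, ind S a x) * 2 ^ S.card = 2 ^ n := by
  have h1 : ∀ x : Fin n → ℤˣ, ind S a x =
      ∏ k, (if k ∈ S then (if x k = a k then (1 : ℝ) else 0) else 1) := by
    intro x
    unfold ind
    by_cases hx : ∀ k ∈ S, x k = a k
    · rw [if_pos hx]
      symm
      refine Finset.prod_eq_one fun k _ => ?_
      by_cases hk : k ∈ S
      · rw [if_pos hk, if_pos (hx k hk)]
      · rw [if_neg hk]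
    · rw [if_neg hx]
      symm
      push Not at hx
      obtain ⟨k, hk, hne⟩ := hx
      refine Finset.prod_eq_zero (Finset.mem_univ k) ?_
      rw [if_pos hk, if_neg hne]
  have h2 : ∑ x : Fin n → ℤˣ, ∏ k, (if k ∈ S then (if x k = a k then (1 : ℝ) else 0) else 1) =
      ∏ k : Fin n, ∑ b : ℤˣ, (if k ∈ S then (if b = a k then (1 : ℝ) else 0) else 1) := by
    rw [Finset.prod_univ_sum, Fintype.piFinset_univ]
  have h3 : ∀ k : Fin n, ∑ b : ℤˣ, (if k ∈ S then (if b = a k then (1 : ℝ) else 0) else 1) =
      if k ∈ S then 1 else 2 := by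
    intro k
    by_cases hk : k ∈ S
    · simp only [if_pos hk]
      rw [Finset.sum_ite_eq', if_pos (Finset.mem_univ _)]
    · simp [hk]
  have h4 : (2 : ℝ) ^ S.card = ∏ k : Fin n, (if k ∈ S then (2 : ℝ) else 1) := by
    rw [Finset.prod_ite_mem, Finset.univ_inter, Finset.prod_const]
  simp only [h1]
  rw [h2, h4, ← Finset.prod_mul_distrib]
  simp only [h3]
  have h5 : ∀ k : Fin n, (if k ∈ S then (1 : ℝ) else 2) * (if k ∈ S then (2 : ℝ) else 1) = 2 := by
    intro k
    by_cases hk : k ∈ S
    · simp [hk]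
    · simp [hk]
  simp only [h5]
  simp

/-- The sum over the two points of `{-1,1}`. -/
theorem sum_units (F : ℤˣ → ℝ) : ∑ β : ℤˣ, F β = F 1 + F (-1) := by
  have h : (Finset.univ : Finset ℤˣ) = {1, -1} := by decide
  rw [h, Finset.sum_pair (by decide)]

/-- The indicator of a subcube as a product over the coordinates. -/
theorem ind_eq_prod (S : Finset (Fin n)) (a x : Fin n → ℤˣ) :
    ind S a x = ∏ k, (if k ∈ S then (if x k = a k then (1 : ℝ) else 0) else 1) := by
  unfold ind
  by_cases hx : ∀ k ∈ S, x k = a k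
  · rw [if_pos hx]
    symm
    refine Finset.prod_eq_one fun k _ => ?_
    by_cases hk : k ∈ S
    · rw [if_pos hk, if_pos (hx k hk)]
    · rw [if_neg hk]
  · rw [if_neg hx]
    symm
    push Not at hx
    obtain ⟨k, hk, hne⟩ := hx
    refine Finset.prod_eq_zero (Finset.mem_univ k) ?_
    rw [if_pos hk, if_neg hne]

/-- The measure of a subcube under the product measure in which every coordinate has
mean `e`: the point `x` has weight `∏ i, (1 + e * x i) / 2`. -/
theorem sum_ind_weight (S : Finset (Fin n)) (a : Fin n → ℤˣ) (e : ℝ) :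
    ∑ x, ind S a x * ∏ i, ((1 + e * sg x i) / 2) = ∏ i ∈ S, ((1 + e * sg a i) / 2) := by
  have h1 : ∀ x : Fin n → ℤˣ, ind S a x * ∏ i, ((1 + e * sg x i) / 2) =
      ∏ k, ((if k ∈ S then (if x k = a k then (1 : ℝ) else 0) else 1) *
        ((1 + e * ((x k : ℤ) : ℝ)) / 2)) := by
    intro x
    rw [ind_eq_prod, ← Finset.prod_mul_distrib]
    rfl
  have h2 : ∑ x : Fin n → ℤˣ, ∏ k, ((if k ∈ S then (if x k = a k then (1 : ℝ) else 0) else 1) *
        ((1 + e * ((x k : ℤ) : ℝ)) / 2)) =
      ∏ k : Fin n, ∑ β : ℤˣ, ((if k ∈ S then (if β = a k then (1 : ℝ) else 0) else 1) *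
        ((1 + e * ((β : ℤ) : ℝ)) / 2)) := by
    rw [Finset.prod_univ_sum, Fintype.piFinset_univ]
  have h3 : ∀ k : Fin n, ∑ β : ℤˣ, ((if k ∈ S then (if β = a k then (1 : ℝ) else 0) else 1) *
        ((1 + e * ((β : ℤ) : ℝ)) / 2)) = if k ∈ S then (1 + e * sg a k) / 2 else 1 := by
    intro k
    by_cases hk : k ∈ S
    · simp only [if_pos hk, ite_mul, one_mul, zero_mul]
      rw [Finset.sum_ite_eq', if_pos (Finset.mem_univ _)]
      rfl
    · simp only [if_neg hk, one_mul]
      rw [sum_units]
      simp
      ring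
  simp only [h1]
  rw [h2]
  simp only [h3]
  rw [Finset.prod_ite_mem, Finset.univ_inter]

/-- Second-order binomial lower bound. -/
theorem binom_lower (δ : ℝ) (hδ : 0 ≤ δ) (s : ℕ) :
    1 + (s : ℝ) * δ + (s : ℝ) * ((s : ℝ) - 1) / 2 * δ ^ 2 ≤ (1 + δ) ^ s := by
  induction s with
  | zero => simp
  | succ k ih =>
    have hk : (0 : ℝ) ≤ k := Nat.cast_nonneg k
    have h1 : (1 + δ) ^ (k + 1) = (1 + δ) ^ k * (1 + δ) := pow_succ _ _
    rw [h1]
    have h2 : (1 + (k : ℝ) * δ + (k : ℝ) * ((k : ℝ) - 1) / 2 * δ ^ 2) * (1 + δ) ≤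
        (1 + δ) ^ k * (1 + δ) := mul_le_mul_of_nonneg_right ih (by linarith)
    have h5 : 0 ≤ (k : ℝ) * ((k : ℝ) - 1) := by
      rcases Nat.eq_zero_or_pos k with h0 | h0
      · subst h0
        simp
      · have : (1 : ℝ) ≤ k := by exact_mod_cast h0
        exact mul_nonneg hk (by linarith)
    have h6 : 0 ≤ (k : ℝ) * ((k : ℝ) - 1) / 2 * (δ ^ 2 * δ) :=
      mul_nonneg (by linarith) (mul_nonneg (sq_nonneg δ) hδ)
    have e : (1 + (k : ℝ) * δ + (k : ℝ) * ((k : ℝ) - 1) / 2 * δ ^ 2) * (1 + δ) =
        1 + ((k : ℝ) + 1) * δ + ((k : ℝ) + 1) * ((k : ℝ) + 1 - 1) / 2 * δ ^ 2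
          + (k : ℝ) * ((k : ℝ) - 1) / 2 * (δ ^ 2 * δ) := by ring
    push_cast
    linarith

/-- The termwise inequality behind the one-sided bound. -/
theorem term_bound (P M d : ℕ) (h : P + M ≤ d) :
    (P : ℝ) - M ≤ Real.sqrt d * ((1 + 1 / Real.sqrt d) ^ P * (1 - 1 / Real.sqrt d) ^ M) := by
  rcases Nat.eq_zero_or_pos d with hd | hd
  · subst hd
    have hP : P = 0 := by omega
    have hM : M = 0 := by omega
    subst hP hM
    simp
  set r : ℝ := Real.sqrt d with hr
  have hd1 : (1 : ℝ) ≤ d := by exact_mod_cast hd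
  have hr1 : 1 ≤ r := by
    rw [hr]
    exact Real.one_le_sqrt.mpr hd1
  have hr0 : 0 < r := by linarith
  have hr2 : r ^ 2 = d := by
    rw [hr]
    exact Real.sq_sqrt (by linarith)
  set δ : ℝ := 1 / r with hδ
  have hδ0 : 0 < δ := by positivity
  have hδ1 : δ ≤ 1 := by
    rw [hδ, div_le_one hr0]
    exact hr1
  have hδr : δ * r = 1 := by
    rw [hδ]
    field_simp
  have hA : 0 ≤ (1 + δ) ^ P := by positivity
  have hB : 0 ≤ (1 - δ) ^ M := pow_nonneg (by linarith) _
  rcases le_or_gt P M with hPM | hPM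
  · have h1 : (P : ℝ) - M ≤ 0 := by
      have : (P : ℝ) ≤ M := by exact_mod_cast hPM
      linarith
    have h2 : 0 ≤ r * ((1 + δ) ^ P * (1 - δ) ^ M) := by positivity
    linarith
  · obtain ⟨s, hs⟩ : ∃ s, P = M + s := ⟨P - M, by omega⟩
    have hs1 : 1 ≤ s := by omega
    have hsd : s ≤ d := by omega
    have hMd : 2 * M ≤ d := by omega
    subst hs
    have hsR1 : (1 : ℝ) ≤ s := by exact_mod_cast hs1
    have hsRd : (s : ℝ) ≤ d := by exact_mod_cast hsd
    have hMR : 2 * (M : ℝ) ≤ d := by exact_mod_cast hMd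
    -- rewrite the product with the `M`-th power of `1 - δ ^ 2` and the `s`-th power of `1 + δ`
    have e1 : (1 + δ) ^ (M + s) * (1 - δ) ^ M = (1 + -(δ ^ 2)) ^ M * (1 + δ) ^ s := by
      rw [pow_add]
      have : (1 + -(δ ^ 2)) = (1 + δ) * (1 - δ) := by ring
      rw [this, mul_pow]
      ring
    have hδ2 : δ ^ 2 * d = 1 := by
      rw [← hr2]
      have : δ ^ 2 * r ^ 2 = (δ * r) ^ 2 := by ring
      rw [this, hδr]
      norm_num
    -- Bernoulli
    have hX : 1 / 2 ≤ (1 + -(δ ^ 2)) ^ M := by
      have hb := one_add_mul_le_pow (a := -(δ ^ 2)) (by nlinarith) M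
      have : (M : ℝ) * δ ^ 2 ≤ 1 / 2 := by nlinarith [sq_nonneg δ]
      linarith
    have hY := binom_lower δ (le_of_lt hδ0) s
    have hY0 : 0 ≤ 1 + (s : ℝ) * δ + (s : ℝ) * ((s : ℝ) - 1) / 2 * δ ^ 2 := by
      have : 0 ≤ (s : ℝ) * ((s : ℝ) - 1) / 2 * δ ^ 2 := by
        apply mul_nonneg _ (sq_nonneg δ)
        nlinarith
      nlinarith
    have hXY : 1 / 2 * (1 + (s : ℝ) * δ + (s : ℝ) * ((s : ℝ) - 1) / 2 * δ ^ 2) ≤
        (1 + -(δ ^ 2)) ^ M * (1 + δ) ^ s :=
      mul_le_mul hX hY hY0 (by linarith)
    have hkey : 0 ≤ r * (r * (1 / 2 * (1 + (s : ℝ) * δ + (s : ℝ) * ((s : ℝ) - 1) / 2 * δ ^ 2))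
        - (s : ℝ)) := by
      have e2 : r * (r * (1 / 2 * (1 + (s : ℝ) * δ + (s : ℝ) * ((s : ℝ) - 1) / 2 * δ ^ 2))
          - (s : ℝ)) = r ^ 2 / 2 + (s : ℝ) * r * (δ * r) / 2
            + (s : ℝ) * ((s : ℝ) - 1) / 4 * (δ * r) ^ 2 - (s : ℝ) * r := by ring
      rw [e2, hδr, hr2]
      nlinarith [sq_nonneg ((s : ℝ) - r)]
    have hkey2 := nonneg_of_mul_nonneg_right hkey hr0
    have hfin : r * (1 / 2 * (1 + (s : ℝ) * δ + (s : ℝ) * ((s : ℝ) - 1) / 2 * δ ^ 2)) ≤
        r * ((1 + -(δ ^ 2)) ^ M * (1 + δ) ^ s) := mul_le_mul_of_nonneg_left hXY (le_of_lt hr0)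
    rw [e1]
    push_cast
    linarith

/-- The level-one sum as a sum over the cube. -/
theorem levelOne_eq (f : (Fin n → ℤˣ) → ℤˣ) :
    (2 : ℝ) ^ n * levelOne f = ∑ x : Fin n → ℤˣ, ((f x : ℤ) : ℝ) * ∑ i, sg x i := by
  have hTpos : (0 : ℝ) < 2 ^ n := by positivity
  unfold levelOne Vale.Agent.Lib.Helper2.P047.fourier
  simp only [Finset.prod_singleton, Fintype.card_fin]
  rw [← Finset.sum_div, mul_div_assoc']
  rw [mul_comm, mul_div_assoc, div_self (ne_of_gt hTpos), mul_one]
  rw [Finset.sum_comm]
  refine Finset.sum_congr rfl fun x _ => ?_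
  rw [Finset.mul_sum]
  rfl

/-- **One-sided bound.**  If one level set `{f = b}` of a Boolean function is a disjoint union
of subcubes of codimension at most `d`, then the level-one sum of `f` is at most `2 √d`. -/
theorem oneSided (n : ℕ) (f : (Fin n → ℤˣ) → ℤˣ) (J : Type) [Fintype J]
    (S : J → Finset (Fin n)) (a : J → Fin n → ℤˣ) (b : ℤˣ) (d : ℕ)
    (hcard : ∀ j, (S j).card ≤ d)
    (hdisj : ∀ (x : Fin n → ℤˣ) (j k : J), (∀ i ∈ S j, x i = a j i) →
      (∀ i ∈ S k, x i = a k i) → j = k)
    (hcover : ∀ x : Fin n → ℤˣ, f x = b ↔ ∃ j, ∀ i ∈ S j, x i = a j i) :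
    levelOne f ≤ 2 * Real.sqrt d := by
  classical
  set T : ℝ := 2 ^ n with hT
  have hTpos : 0 < T := by positivity
  set r : ℝ := Real.sqrt d with hr
  have hr0 : 0 ≤ r := Real.sqrt_nonneg _
  set δ : ℝ := 1 / r with hδ
  set bR : ℝ := ((b : ℤ) : ℝ) with hbR
  have hbR2 : bR * bR = 1 := by
    rw [hbR]
    rcases Int.units_eq_one_or b with h | h <;> simp [h]
  set e : ℝ := bR * δ with he
  -- `|e| ≤ 1`
  have hδ01 : 0 ≤ δ ∧ δ ≤ 1 := by
    rcases Nat.eq_zero_or_pos d with hd | hd
    · have : r = 0 := by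
        rw [hr, hd]
        simp
      rw [hδ, this]
      simp
    · have hd1 : (1 : ℝ) ≤ d := by exact_mod_cast hd
      have hr1 : 1 ≤ r := by
        rw [hr]
        exact Real.one_le_sqrt.mpr hd1
      have hrpos : 0 < r := by linarith
      constructor
      · rw [hδ]
        positivity
      · rw [hδ, div_le_one hrpos]
        exact hr1
  have hsgcases : ∀ (x : Fin n → ℤˣ) (i : Fin n), sg x i = 1 ∨ sg x i = -1 := by
    intro x i
    unfold sg
    rcases Int.units_eq_one_or (x i) with h | h <;> simp [h]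
  have hbcases : bR = 1 ∨ bR = -1 := by
    rw [hbR]
    rcases Int.units_eq_one_or b with h | h <;> simp [h]
  have hfac : ∀ (x : Fin n → ℤˣ) (i : Fin n), 0 ≤ (1 + e * sg x i) / 2 := by
    intro x i
    rw [he]
    rcases hsgcases x i with h | h <;> rcases hbcases with h' | h' <;> rw [h, h'] <;>
      linarith [hδ01.1, hδ01.2]
  set w : (Fin n → ℤˣ) → ℝ := fun x => ∏ i, ((1 + e * sg x i) / 2) with hw
  have hw0 : ∀ x, 0 ≤ w x := fun x => Finset.prod_nonneg fun i _ => hfac x i
  have hw1 : ∑ x, w x = 1 := by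
    have h := sum_ind_weight (n := n) ∅ (fun _ => 1) e
    have hind : ∀ x : Fin n → ℤˣ, ind (∅ : Finset (Fin n)) (fun _ => 1) x = 1 := by
      intro x
      unfold ind
      simp
    simp only [hind, one_mul, Finset.prod_empty] at h
    exact h
  -- at most one subcube contains a given point
  have hle1 : ∀ x : Fin n → ℤˣ, ∑ j, ind (S j) (a j) x ≤ 1 := by
    intro x
    by_cases hx : ∃ j, ∀ i ∈ S j, x i = a j i
    · obtain ⟨j0, hj0⟩ := hx
      rw [Finset.sum_eq_single j0]
      · unfold ind
        rw [if_pos hj0]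
      · intro j _ hne
        unfold ind
        rw [if_neg]
        intro hj
        exact hne (hdisj x j j0 hj hj0)
      · intro h
        exact absurd (Finset.mem_univ j0) h
    · push Not at hx
      have : ∀ j, ind (S j) (a j) x = 0 := by
        intro j
        unfold ind
        rw [if_neg]
        intro hj
        obtain ⟨i, hi, hne⟩ := hx j
        exact hne (hj i hi)
      simp [this]
  -- the measures of the subcubes add up to at most one
  set μ : J → ℝ := fun j => ∏ i ∈ S j, ((1 + e * sg (a j) i) / 2) with hμ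
  have hμsum : ∑ j, μ j ≤ 1 := by
    have hμx : ∀ j, μ j = ∑ x, ind (S j) (a j) x * w x :=
      fun j => (sum_ind_weight (S j) (a j) e).symm
    have h1 : ∑ j, μ j = ∑ x, w x * ∑ j, ind (S j) (a j) x := by
      rw [Finset.sum_congr rfl fun j _ => hμx j]
      rw [Finset.sum_comm]
      refine Finset.sum_congr rfl fun x _ => ?_
      rw [Finset.mul_sum]
      refine Finset.sum_congr rfl fun j _ => ?_
      ring
    rw [h1, ← hw1]
    refine Finset.sum_le_sum fun x _ => ?_
    have := mul_le_mul_of_nonneg_left (hle1 x) (hw0 x)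
    linarith
  -- the values of `f`
  have hf : ∀ x : Fin n → ℤˣ, ((f x : ℤ) : ℝ) = bR * (2 * ∑ j, ind (S j) (a j) x - 1) := by
    intro x
    by_cases hx : f x = b
    · obtain ⟨j0, hj0⟩ := (hcover x).1 hx
      have : ∑ j, ind (S j) (a j) x = 1 := by
        rw [Finset.sum_eq_single j0]
        · unfold ind
          rw [if_pos hj0]
        · intro j _ hne
          unfold ind
          rw [if_neg]
          intro hj
          exact hne (hdisj x j j0 hj hj0)
        · intro h
          exact absurd (Finset.mem_univ j0) h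
      rw [this, hx, hbR]
      ring
    · have hno : ∀ j, ind (S j) (a j) x = 0 := by
        intro j
        unfold ind
        rw [if_neg]
        intro hj
        exact hx ((hcover x).2 ⟨j, hj⟩)
      have hneg : f x = -b := Int.units_ne_iff_eq_neg.1 hx
      simp only [hno, Finset.sum_const_zero]
      rw [hneg, hbR]
      push_cast
      ring
  -- the sum of `L` over the whole cube vanishes
  have hL0 : ∑ x : Fin n → ℤˣ, ∑ i, sg x i = 0 := by
    have h := sum_ind_L (n := n) ∅ (fun _ => 1)
    have hind : ∀ x : Fin n → ℤˣ, ind (∅ : Finset (Fin n)) (fun _ => 1) x = 1 := by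
      intro x
      unfold ind
      simp
    have hu : ∀ i : Fin n, u (∅ : Finset (Fin n)) (fun _ => 1) i = 0 := by
      intro i
      unfold u
      simp
    simp only [hind, hu, one_mul, Finset.sum_const_zero, zero_mul] at h
    exact h
  -- the level-one sum in terms of the subcubes
  have hE : T * levelOne f =
      2 * ∑ j, (bR * ∑ i, u (S j) (a j) i) * ∑ x, ind (S j) (a j) x := by
    rw [hT, levelOne_eq]
    have h1 : ∀ x : Fin n → ℤˣ, ((f x : ℤ) : ℝ) * ∑ i, sg x i =
        2 * bR * ∑ j, ind (S j) (a j) x * ∑ i, sg x i - bR * ∑ i, sg x i := by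
      intro x
      rw [hf x, ← Finset.sum_mul]
      ring
    simp only [h1]
    rw [Finset.sum_sub_distrib, ← Finset.mul_sum, ← Finset.mul_sum, hL0, Finset.sum_comm]
    simp only [sum_ind_L]
    rw [Finset.mul_sum, Finset.mul_sum]
    simp only [mul_zero, sub_zero]
    refine Finset.sum_congr rfl fun j _ => ?_
    ring
  -- termwise comparison
  have hterm : ∀ j, (bR * ∑ i, u (S j) (a j) i) * ∑ x, ind (S j) (a j) x ≤ T * (r * μ j) := by
    intro j
    set P : ℕ := ((S j).filter (fun i => a j i = b)).card with hP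
    set M : ℕ := ((S j).filter (fun i => ¬ a j i = b)).card with hM
    have hPM : P + M = (S j).card := Finset.card_filter_add_card_filter_not _
    have hsgb : ∀ i, bR * sg (a j) i = if a j i = b then 1 else -1 := by
      intro i
      unfold sg
      rw [hbR]
      by_cases hi : a j i = b
      · rw [if_pos hi, hi]
        exact hbR2
      · rw [if_neg hi, Int.units_ne_iff_eq_neg.1 hi]
        push_cast
        have := hbR2
        rw [hbR] at this
        linarith
    have hs : bR * ∑ i, u (S j) (a j) i = (P : ℝ) - M := by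
      have h1 : ∑ i, u (S j) (a j) i = ∑ i ∈ S j, sg (a j) i := by
        unfold u
        rw [Finset.sum_ite_mem, Finset.univ_inter]
      rw [h1, Finset.mul_sum]
      simp only [hsgb]
      rw [Finset.sum_ite]
      simp only [Finset.sum_const, nsmul_eq_mul, mul_one, mul_neg]
      rw [hP, hM]
      ring
    have hμj : μ j = (1 + δ) ^ P * (1 - δ) ^ M / 2 ^ (S j).card := by
      have h1 : ∀ i, (1 + e * sg (a j) i) / 2 = if a j i = b then (1 + δ) / 2 else (1 - δ) / 2 := by
        intro i
        have h2 : e * sg (a j) i = δ * (bR * sg (a j) i) := by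
          rw [he]
          ring
        rw [h2, hsgb i]
        by_cases hi : a j i = b
        · rw [if_pos hi, if_pos hi]
          ring
        · rw [if_neg hi, if_neg hi]
          ring
      simp only [hμ, h1]
      rw [Finset.prod_ite]
      simp only [Finset.prod_const]
      rw [← hP, ← hM, ← hPM, div_pow, div_pow, pow_add]
      have h2P : (0 : ℝ) < 2 ^ P := by positivity
      have h2M : (0 : ℝ) < 2 ^ M := by positivity
      field_simp
    have hc : ∑ x, ind (S j) (a j) x = T / 2 ^ (S j).card := by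
      have h := sum_ind (S j) (a j)
      have h2 : (0 : ℝ) < 2 ^ (S j).card := by positivity
      rw [eq_div_iff (ne_of_gt h2)]
      exact h
    have htb := term_bound P M d (by rw [hPM]; exact hcard j)
    rw [hs, hc, hμj]
    have h2 : (0 : ℝ) < 2 ^ (S j).card := by positivity
    have h3 : ((P : ℝ) - M) * (T / 2 ^ (S j).card) =
        T / 2 ^ (S j).card * ((P : ℝ) - M) := by ring
    have h4 : T * (r * ((1 + δ) ^ P * (1 - δ) ^ M / 2 ^ (S j).card)) =
        T / 2 ^ (S j).card * (r * ((1 + δ) ^ P * (1 - δ) ^ M)) := by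
      field_simp
    rw [h3, h4]
    exact mul_le_mul_of_nonneg_left htb (by positivity)
  -- conclusion
  have hfinal : T * levelOne f ≤ T * (2 * r) := by
    rw [hE]
    have h1 : ∑ j, (bR * ∑ i, u (S j) (a j) i) * ∑ x, ind (S j) (a j) x ≤ ∑ j, T * (r * μ j) :=
      Finset.sum_le_sum fun j _ => hterm j
    have h2 : ∑ j, T * (r * μ j) = T * r * ∑ j, μ j := by
      rw [Finset.mul_sum]
      refine Finset.sum_congr rfl fun j _ => ?_
      ring
    have h3 : T * r * ∑ j, μ j ≤ T * r * 1 :=
      mul_le_mul_of_nonneg_left hμsum (by positivity)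
    linarith
  exact le_of_mul_le_mul_left hfinal hTpos

/-- **Level-one sums and subcube partitions.**  Let `f` be a Boolean function on the cube
`{-1,1}^n`, and let the subcubes `C_j = {x | ∀ i ∈ S j, x i = a j i}` (`j` in a finite index
type) partition the cube, `f` being constant on each of them.  Then the level-one sum of `f` is
at most the square root of the average codimension `∑ j, |S j| / 2 ^ |S j|` of the partition;
in particular it is at most `√d` if every `S j` has at most `d` elements. -/
theorem twoSided (n : ℕ) (f : (Fin n → ℤˣ) → ℤˣ) (J : Type) [Fintype J]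
    (S : J → Finset (Fin n)) (a : J → Fin n → ℤˣ)
    (hpart : ∀ x : Fin n → ℤˣ, ∃! j, ∀ i ∈ S j, x i = a j i)
    (hconst : ∀ j (x y : Fin n → ℤˣ), (∀ i ∈ S j, x i = a j i) → (∀ i ∈ S j, y i = a j i) →
      f x = f y) :
    levelOne f ≤ Real.sqrt (∑ j, ((S j).card : ℝ) / 2 ^ (S j).card) ∧
      ∀ d : ℕ, (∀ j, (S j).card ≤ d) → levelOne f ≤ Real.sqrt d := by
  classical
  -- abbreviations
  set T : ℝ := 2 ^ n with hT
  have hTpos : 0 < T := by positivity
  set c : J → ℝ := fun j => ∑ x, ind (S j) (a j) x with hc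
  set s : J → ℝ := fun j => ∑ i, u (S j) (a j) i with hs
  set v : J → ℝ := fun j => ((f (a j) : ℤ) : ℝ) with hv
  set w : J → ℝ := fun j => ((S j).card : ℝ) with hw
  have hc0 : ∀ j, 0 ≤ c j := by
    intro j
    refine Finset.sum_nonneg fun x _ => ?_
    unfold ind
    split_ifs <;> norm_num
  have hcw : ∀ j, c j = T / 2 ^ (S j).card := by
    intro j
    have h := sum_ind (S j) (a j)
    have h2 : (0 : ℝ) < 2 ^ (S j).card := by positivity
    rw [eq_div_iff (ne_of_gt h2)]
    exact h
  have hv2 : ∀ j, v j ^ 2 = 1 := by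
    intro j
    simp only [hv]
    rcases Int.units_eq_one_or (f (a j)) with h | h <;> simp [h]
  -- the partition property, pointwise
  have hone : ∀ x : Fin n → ℤˣ, ∑ j, ind (S j) (a j) x = 1 := by
    intro x
    obtain ⟨j0, hj0, huniq⟩ := hpart x
    rw [Finset.sum_eq_single j0]
    · unfold ind
      rw [if_pos hj0]
    · intro j _ hne
      unfold ind
      rw [if_neg]
      intro hj
      exact hne (huniq j hj)
    · intro h
      exact absurd (Finset.mem_univ j0) h
  -- splitting a sum over the cube along the partition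
  have hsplit : ∀ F : (Fin n → ℤˣ) → ℝ, ∑ x, F x = ∑ j, ∑ x, ind (S j) (a j) x * F x := by
    intro F
    rw [Finset.sum_comm]
    refine Finset.sum_congr rfl fun x _ => ?_
    rw [← Finset.sum_mul, hone x, one_mul]
  -- (E1) the sizes add up
  have hE1 : ∑ j, c j = T := by
    have h := hsplit (fun _ => (1 : ℝ))
    simp only [mul_one] at h
    rw [← h]
    simp [hT]
  -- (E2) the level-one sum
  have hE2 : T * levelOne f = ∑ j, v j * s j * c j := by
    have h0 : T * levelOne f = ∑ x : Fin n → ℤˣ, ((f x : ℤ) : ℝ) * ∑ i, sg x i := by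
      unfold levelOne Vale.Agent.Lib.Helper2.P047.fourier
      simp only [Finset.prod_singleton, Fintype.card_fin]
      rw [← Finset.sum_div, mul_div_assoc']
      rw [mul_comm, mul_div_assoc, div_self (ne_of_gt hTpos), mul_one]
      rw [Finset.sum_comm]
      refine Finset.sum_congr rfl fun x _ => ?_
      rw [Finset.mul_sum]
      rfl
    rw [h0, hsplit]
    refine Finset.sum_congr rfl fun j _ => ?_
    have h1 : ∀ x : Fin n → ℤˣ, ind (S j) (a j) x * (((f x : ℤ) : ℝ) * ∑ i, sg x i) =
        v j * (ind (S j) (a j) x * ∑ i, sg x i) := by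
      intro x
      unfold ind
      by_cases hx : ∀ i ∈ S j, x i = a j i
      · rw [if_pos hx]
        have : f x = f (a j) := hconst j x (a j) hx (fun i _ => rfl)
        simp only [hv]
        rw [this]
        ring
      · rw [if_neg hx]
        ring
    simp only [h1]
    rw [← Finset.mul_sum, sum_ind_L]
    ring
  -- (E3) second moments
  have hE3 : ∑ j, c j * s j ^ 2 = ∑ j, c j * w j := by
    have hL : ∑ x : Fin n → ℤˣ, (∑ i, sg x i) ^ 2 = (n : ℝ) * T := by
      have h := sum_ind_L_sq (n := n) ∅ (fun _ => 1)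
      have hind : ∀ x : Fin n → ℤˣ, ind (∅ : Finset (Fin n)) (fun _ => 1) x = 1 := by
        intro x
        unfold ind
        simp
      have hu : ∀ i : Fin n, u (∅ : Finset (Fin n)) (fun _ => 1) i = 0 := by
        intro i
        unfold u
        simp
      simp only [hind, hu, one_mul, Finset.sum_const_zero, Finset.card_empty, Nat.cast_zero,
        sub_zero] at h
      rw [h]
      simp [hT]
    have h := hsplit (fun x => (∑ i, sg x i) ^ 2)
    rw [hL] at h
    have h2 : ∀ j, ∑ x, ind (S j) (a j) x * (∑ i, sg x i) ^ 2 =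
        (s j ^ 2 + ((n : ℝ) - w j)) * c j := fun j => sum_ind_L_sq (S j) (a j)
    simp only [h2] at h
    have h3 : ∑ j, (s j ^ 2 + ((n : ℝ) - w j)) * c j =
        ∑ j, c j * s j ^ 2 + (n : ℝ) * ∑ j, c j - ∑ j, c j * w j := by
      rw [Finset.mul_sum, ← Finset.sum_add_distrib, ← Finset.sum_sub_distrib]
      refine Finset.sum_congr rfl fun j _ => ?_
      ring
    rw [h3, hE1] at h
    linarith
  -- Cauchy-Schwarz
  have hCS : (T * levelOne f) ^ 2 ≤ T * ∑ j, c j * w j := by
    set m : ℝ := T * levelOne f with hm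
    have hnn : 0 ≤ ∑ j, c j * (T * (v j * s j) - m) ^ 2 :=
      Finset.sum_nonneg fun j _ => mul_nonneg (hc0 j) (sq_nonneg _)
    have hexp : ∑ j, c j * (T * (v j * s j) - m) ^ 2 =
        T ^ 2 * ∑ j, c j * s j ^ 2 - 2 * T * m * ∑ j, v j * s j * c j + m ^ 2 * ∑ j, c j := by
      rw [Finset.mul_sum, Finset.mul_sum, Finset.mul_sum, ← Finset.sum_sub_distrib,
        ← Finset.sum_add_distrib]
      refine Finset.sum_congr rfl fun j _ => ?_
      have := hv2 j
      have e : c j * (T * (v j * s j) - m) ^ 2 =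
          T ^ 2 * (c j * s j ^ 2) * v j ^ 2 - 2 * T * m * (v j * s j * c j) + m ^ 2 * c j := by
        ring
      rw [e, this, mul_one]
    rw [hexp, ← hE2, hE1, hE3] at hnn
    have h4 : 0 ≤ T * (T * ∑ j, c j * w j - m ^ 2) := by nlinarith
    have h5 : 0 ≤ T * ∑ j, c j * w j - m ^ 2 := by
      by_contra hneg
      push Not at hneg
      have := mul_neg_of_pos_of_neg hTpos hneg
      linarith
    linarith
  -- the average codimension
  have havg : ∑ j, c j * w j = T * ∑ j, ((S j).card : ℝ) / 2 ^ (S j).card := by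
    rw [Finset.mul_sum]
    refine Finset.sum_congr rfl fun j _ => ?_
    rw [hcw j]
    simp only [hw]
    ring
  have hsq : levelOne f ^ 2 ≤ ∑ j, ((S j).card : ℝ) / 2 ^ (S j).card := by
    rw [havg] at hCS
    have h6 : T ^ 2 * levelOne f ^ 2 ≤ T ^ 2 * ∑ j, ((S j).card : ℝ) / 2 ^ (S j).card := by
      nlinarith
    have hT2 : 0 < T ^ 2 := by positivity
    exact le_of_mul_le_mul_left h6 hT2
  have hmain : levelOne f ≤ Real.sqrt (∑ j, ((S j).card : ℝ) / 2 ^ (S j).card) :=
    le_trans (le_abs_self _) (Real.abs_le_sqrt hsq)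
  refine ⟨hmain, ?_⟩
  intro d hd
  refine le_trans hmain (Real.sqrt_le_sqrt ?_)
  -- the average is at most the maximum
  have h7 : ∑ j, ((S j).card : ℝ) / 2 ^ (S j).card ≤ ∑ j, (d : ℝ) * (c j / T) := by
    refine Finset.sum_le_sum fun j _ => ?_
    rw [hcw j]
    have h2 : (0 : ℝ) < 2 ^ (S j).card := by positivity
    have h8 : ((S j).card : ℝ) ≤ d := by exact_mod_cast hd j
    have h9 : T / 2 ^ (S j).card / T = 1 / 2 ^ (S j).card := by
      field_simp
    rw [h9]
    rw [div_eq_mul_one_div]
    exact mul_le_mul_of_nonneg_right h8 (by positivity)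
  have h10 : ∑ j, (d : ℝ) * (c j / T) = d := by
    rw [← Finset.mul_sum, ← Finset.sum_div, hE1, div_self (ne_of_gt hTpos), mul_one]
  linarith


/-- **Level-one sums and subcubes.**  Let `f` be a Boolean function on the cube `{-1,1}^n` and
let `C_j = {x | ∀ i ∈ S j, x i = a j i}` (`j` in a finite index type) be subcubes.

(1) If the `C_j` partition the cube and `f` is constant on each of them, then the level-one sum
of `f` is at most the square root of the average codimension `∑ j, |S j| / 2 ^ |S j|` of the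
partition; in particular it is at most `√d` if every `S j` has at most `d` elements.

(2) If the `C_j` are pairwise disjoint, each of codimension at most `d`, and their union is one
level set `{f = b}` of `f`, then the level-one sum of `f` is at most `2 √d`. -/
theorem result (n : ℕ) (f : (Fin n → ℤˣ) → ℤˣ) (J : Type) [Fintype J]
    (S : J → Finset (Fin n)) (a : J → Fin n → ℤˣ) :
    ((∀ x : Fin n → ℤˣ, ∃! j, ∀ i ∈ S j, x i = a j i) →
      (∀ j (x y : Fin n → ℤˣ), (∀ i ∈ S j, x i = a j i) → (∀ i ∈ S j, y i = a j i) →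
        f x = f y) →
      levelOne f ≤ Real.sqrt (∑ j, ((S j).card : ℝ) / 2 ^ (S j).card) ∧
        ∀ d : ℕ, (∀ j, (S j).card ≤ d) → levelOne f ≤ Real.sqrt d) ∧
    (∀ (b : ℤˣ) (d : ℕ), (∀ j, (S j).card ≤ d) →
      (∀ (x : Fin n → ℤˣ) (j k : J), (∀ i ∈ S j, x i = a j i) → (∀ i ∈ S k, x i = a k i) →
        j = k) →
      (∀ x : Fin n → ℤˣ, f x = b ↔ ∃ j, ∀ i ∈ S j, x i = a j i) →
      levelOne f ≤ 2 * Real.sqrt d) :=
  ⟨fun hpart hconst => twoSided n f J S a hpart hconst,
    fun b d hcard hdisj hcover => oneSided n f J S a b d hcard hdisj hcover⟩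

end Vale.Agent.Results.P047.SubcubePartitions
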