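import Mathlib
import Vale.Agent.Lib.Helper2.P047.Defs
import Vale.Agent.Lib.Helper2.P047.Compose

namespace Vale.Agent.Results.P047.WeakImpliesStrong

open Vale.Agent.Lib.Helper2.P047

/-- If the weak (constant-factor) form of the square-root bound holds for all Boolean functions,
then the strong form (constant one) holds for every balanced Boolean function. -/
theorem result :
    (∃ C : ℝ, ∀ (n : ℕ) (f : (Fin n → ℤˣ) → ℤˣ),
        levelOne f ≤ C * Real.sqrt (degree f)) →
    ∀ (n : ℕ) (f : (Fin n → ℤˣ) → ℤˣ), fourier f ∅ = 0 →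
        levelOne f ≤ Real.sqrt (degree f) := by
  rintro ⟨C, hC⟩ n f hbal
  have iter : ∀ k : ℕ, ∃ (m : ℕ) (F : (Fin m → ℤˣ) → ℤˣ),
      levelOne F = levelOne f ^ (k + 1) ∧ degree F ≤ degree f ^ (k + 1) ∧ fourier F ∅ = 0 := by
    intro k
    induction k with
    | zero => exact ⟨n, f, by simp, by simp, hbal⟩
    | succ k ih =>
      obtain ⟨m, F, hW, hd, hb⟩ := ih
      refine ⟨n * m, reindex finProdFinEquiv (comp f F), ?_, ?_, ?_⟩
      · rw [levelOne_reindex, levelOne_comp f F hb, hW]
        ring
      · calc degree (reindex finProdFinEquiv (comp f F)) ≤ degree (comp f F) :=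
              degree_reindex_le _ _
          _ ≤ degree f * degree F := degree_comp_le f F hb
          _ ≤ degree f * degree f ^ (k + 1) := Nat.mul_le_mul_left _ hd
          _ = degree f ^ (k + 1 + 1) := by ring
      · rw [fourier_reindex, Finset.map_empty, fourier_comp_empty f F hb]
        exact hbal
  by_contra hlt
  have hlt' : Real.sqrt (degree f) < levelOne f := not_le.mp hlt
  have hs0 : 0 ≤ Real.sqrt (degree f) := Real.sqrt_nonneg _
  have hw0 : 0 < levelOne f := lt_of_le_of_lt hs0 hlt'
  have h1 := hC n f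
  have hs : 0 < Real.sqrt (degree f) := by
    rcases hs0.lt_or_eq with h | h
    · exact h
    · rw [← h] at h1
      simp at h1
      linarith
  have hCpos : 0 < C := by
    by_contra hc
    have h2 : C * Real.sqrt (degree f) ≤ 0 :=
      mul_nonpos_of_nonpos_of_nonneg (not_lt.mp hc) hs0
    linarith
  have hk : ∀ k : ℕ, levelOne f ^ (k + 1) ≤ C * Real.sqrt (degree f) ^ (k + 1) := by
    intro k
    obtain ⟨m, F, hW, hd, _⟩ := iter k
    have h2 := hC m F
    rw [hW] at h2
    have h3 : Real.sqrt ((degree f : ℝ) ^ (k + 1)) = Real.sqrt (degree f) ^ (k + 1) := by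
      rw [Real.sqrt_eq_iff_mul_self_eq (by positivity) (by positivity)]
      rw [← mul_pow, Real.mul_self_sqrt (Nat.cast_nonneg _)]
    calc levelOne f ^ (k + 1) ≤ C * Real.sqrt (degree F) := h2
      _ ≤ C * Real.sqrt ((degree f : ℝ) ^ (k + 1)) := by
          apply mul_le_mul_of_nonneg_left _ hCpos.le
          apply Real.sqrt_le_sqrt
          exact_mod_cast hd
      _ = C * Real.sqrt (degree f) ^ (k + 1) := by rw [h3]
  have hr1 : 1 < levelOne f / Real.sqrt (degree f) := by
    rw [lt_div_iff₀ hs]
    linarith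
  have hrk : ∀ k : ℕ, (levelOne f / Real.sqrt (degree f)) ^ (k + 1) ≤ C := by
    intro k
    rw [div_pow, div_le_iff₀ (by positivity)]
    exact hk k
  obtain ⟨k, hk2⟩ := exists_nat_gt ((C - 1) / (levelOne f / Real.sqrt (degree f) - 1))
  have hb := one_add_mul_le_pow (a := levelOne f / Real.sqrt (degree f) - 1) (by linarith) (k + 1)
  have h4 : (C - 1) / (levelOne f / Real.sqrt (degree f) - 1) < (k : ℝ) + 1 := by linarith
  rw [div_lt_iff₀ (by linarith)] at h4
  have h5 := hrk k
  have h6 : (1 : ℝ) + (levelOne f / Real.sqrt (degree f) - 1) = levelOne f / Real.sqrt (degree f) := by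
    ring
  rw [h6] at hb
  push_cast at hb
  linarith

end Vale.Agent.Results.P047.WeakImpliesStrong
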