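import Mathlib
import Vale.Agent.Lib.Helper2.P047.Defs
import Vale.Agent.Lib.Helper2.P047.Compose
import Vale.Agent.Lib.Helper2.P047.Oddify
import Vale.Agent.Results.P047.WeakImpliesStrong

namespace Vale.Agent.Results.P047.WeakIffExplicit

open Vale.Agent.Lib.Helper2.P047

/-- The weak (constant-factor) form of the square-root bound is equivalent to the explicit
inequality `W(f) + |E f| ≤ sqrt (deg f + 1)` for all Boolean `f`; and it implies
`W(f) + |E f| ≤ sqrt (deg f)` whenever `deg f` is odd or `f` is balanced. -/
theorem result :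
    ((∃ C : ℝ, ∀ (n : ℕ) (f : (Fin n → ℤˣ) → ℤˣ),
        levelOne f ≤ C * Real.sqrt (degree f)) ↔
      (∀ (n : ℕ) (f : (Fin n → ℤˣ) → ℤˣ),
        levelOne f + |fourier f ∅| ≤ Real.sqrt ((degree f : ℝ) + 1))) ∧
    ((∃ C : ℝ, ∀ (n : ℕ) (f : (Fin n → ℤˣ) → ℤˣ),
        levelOne f ≤ C * Real.sqrt (degree f)) →
      ∀ (n : ℕ) (f : (Fin n → ℤˣ) → ℤˣ), (Odd (degree f) ∨ fourier f ∅ = 0) →
        levelOne f + |fourier f ∅| ≤ Real.sqrt (degree f)) := by
  have key : (∃ C : ℝ, ∀ (n : ℕ) (f : (Fin n → ℤˣ) → ℤˣ),
        levelOne f ≤ C * Real.sqrt (degree f)) →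
      ∀ (n : ℕ) (f : (Fin n → ℤˣ) → ℤˣ),
        levelOne f + fourier f ∅ ≤ Real.sqrt (degree (oddify f)) := by
    intro hweak n f
    have base := Vale.Agent.Results.P047.WeakImpliesStrong.result hweak
    have hb : fourier (reindex (finSuccEquiv n).symm (oddify f)) ∅ = 0 := by
      rw [fourier_reindex, Finset.map_empty, fourier_oddify_empty]
    have h1 := base (n + 1) (reindex (finSuccEquiv n).symm (oddify f)) hb
    rw [levelOne_reindex, levelOne_oddify] at h1
    refine h1.trans (Real.sqrt_le_sqrt ?_)
    exact_mod_cast degree_reindex_le _ _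
  refine ⟨⟨?_, ?_⟩, ?_⟩
  · intro hweak n f
    have k1 := key hweak n f
    have k2 := key hweak n (reflect f)
    rw [levelOne_reflect, fourier_reflect_empty] at k2
    have d1 : Real.sqrt (degree (oddify f)) ≤ Real.sqrt ((degree f : ℝ) + 1) := by
      apply Real.sqrt_le_sqrt
      exact_mod_cast degree_oddify_le f
    have d2 : Real.sqrt (degree (oddify (reflect f))) ≤ Real.sqrt ((degree f : ℝ) + 1) := by
      apply Real.sqrt_le_sqrt
      have h := degree_oddify_le (reflect f)
      rw [degree_reflect] at h
      exact_mod_cast h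
    rcases abs_cases (fourier f ∅) with ⟨h, _⟩ | ⟨h, _⟩
    · rw [h]
      linarith
    · rw [h]
      linarith
  · intro hexp
    refine ⟨Real.sqrt 2, ?_⟩
    intro n f
    have h1 := hexp n f
    have h2 : levelOne f ≤ Real.sqrt ((degree f : ℝ) + 1) := by
      have := abs_nonneg (fourier f ∅)
      linarith
    by_cases hd : degree f = 0
    · have hz : levelOne f = 0 := by
        unfold levelOne
        apply Finset.sum_eq_zero
        intro i _
        by_contra hne
        have hle : ({i} : Finset (Fin n)).card ≤ degree f :=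
          Finset.le_sup (f := Finset.card) (by simp [hne])
        rw [hd] at hle
        simp at hle
      rw [hz]
      positivity
    · have hd1 : (1 : ℝ) ≤ (degree f : ℝ) := by
        exact_mod_cast Nat.one_le_iff_ne_zero.mpr hd
      calc levelOne f ≤ Real.sqrt ((degree f : ℝ) + 1) := h2
        _ ≤ Real.sqrt (2 * (degree f : ℝ)) := Real.sqrt_le_sqrt (by linarith)
        _ = Real.sqrt 2 * Real.sqrt (degree f) := Real.sqrt_mul (by norm_num) _
  · intro hweak n f hcase
    rcases hcase with hodd | hbal
    · have k1 := key hweak n f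
      have k2 := key hweak n (reflect f)
      rw [levelOne_reflect, fourier_reflect_empty] at k2
      have d1 : Real.sqrt (degree (oddify f)) ≤ Real.sqrt (degree f) := by
        apply Real.sqrt_le_sqrt
        exact_mod_cast degree_oddify_le_of_odd f hodd
      have d2 : Real.sqrt (degree (oddify (reflect f))) ≤ Real.sqrt (degree f) := by
        apply Real.sqrt_le_sqrt
        have h := degree_oddify_le_of_odd (reflect f) (by rw [degree_reflect]; exact hodd)
        rw [degree_reflect] at h
        exact_mod_cast h
      rcases abs_cases (fourier f ∅) with ⟨h, _⟩ | ⟨h, _⟩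
      · rw [h]
        linarith
      · rw [h]
        linarith
    · have base := Vale.Agent.Results.P047.WeakImpliesStrong.result hweak n f hbal
      rw [hbal, abs_zero, add_zero]
      exact base

end Vale.Agent.Results.P047.WeakIffExplicit
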