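import Vale.Agent.Results.P047.EvenDegreeBeatsMajority
import Vale.Agent.Results.P047.LinearBoundImproved
import Vale.Agent.Results.P047.WeakIffExplicit

/-!
# P047: a lower bound, an upper bound and a reduction for the level-one sum, in one statement

`levelOne f` is the sum of the degree-one Fourier coefficients of a Boolean function `f` on the
cube, `degree f` its Fourier degree, `majBound d` the number `B_d = E |X_1 + ... + X_d|`.

First part (the statement of the hand-in `EvenDegreeBeatsMajority`): for every even `d ≥ 4` some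
Boolean function of degree at most `d` has level-one sum
`B_d + binom (d - 3) (d / 2 - 2) / 2 ^ (d - 2)`, which exceeds `B_d`.

Second part (the statement of the hand-in `LinearBoundImproved`): every Boolean function of
degree at most `d ≥ 2` has level-one sum at most `(29 / 30) d`.

Third and fourth part (the statement of the hand-in `WeakIffExplicit`): the weak form of the
square-root bound (with some constant) is equivalent to the explicit inequality
`levelOne f + |E f| ≤ sqrt (degree f + 1)` for all Boolean `f`, and it implies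
`levelOne f + |E f| ≤ sqrt (degree f)` whenever `degree f` is odd or `f` is balanced.
-/

namespace Vale.Agent.Results.P047.TwoSidedBoundsAndReduction

open Vale.Agent.Lib.Helper2.P047

theorem result :
    (∀ d : ℕ, Even d → 4 ≤ d →
      ∃ (n : ℕ) (f : (Fin n → ℤˣ) → ℤˣ),
        degree f ≤ d ∧
        levelOne f = majBound d + ((d - 3).choose (d / 2 - 2) : ℝ) / 2 ^ (d - 2) ∧
        majBound d < levelOne f) ∧
    (∀ d : ℕ, 2 ≤ d → ∀ (n : ℕ) (f : (Fin n → ℤˣ) → ℤˣ),
      degree f ≤ d → levelOne f ≤ 29 / 30 * (d : ℝ)) ∧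
    ((∃ C : ℝ, ∀ (n : ℕ) (f : (Fin n → ℤˣ) → ℤˣ),
        levelOne f ≤ C * Real.sqrt (degree f)) ↔
      (∀ (n : ℕ) (f : (Fin n → ℤˣ) → ℤˣ),
        levelOne f + |fourier f ∅| ≤ Real.sqrt ((degree f : ℝ) + 1))) ∧
    ((∃ C : ℝ, ∀ (n : ℕ) (f : (Fin n → ℤˣ) → ℤˣ),
        levelOne f ≤ C * Real.sqrt (degree f)) →
      ∀ (n : ℕ) (f : (Fin n → ℤˣ) → ℤˣ), (Odd (degree f) ∨ fourier f ∅ = 0) →
        levelOne f + |fourier f ∅| ≤ Real.sqrt (degree f)) :=
  ⟨Vale.Agent.Results.P047.EvenDegreeBeatsMajority.result,
    Vale.Agent.Results.P047.LinearBoundImproved.result,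
    Vale.Agent.Results.P047.WeakIffExplicit.result.1,
    Vale.Agent.Results.P047.WeakIffExplicit.result.2⟩

end Vale.Agent.Results.P047.TwoSidedBoundsAndReduction
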